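import Vale.Agent.P011IR.IF

/-!
The split linear package.
-/

set_option autoImplicit false
set_option linter.all false

open Matrix Finset Filter Topology
open scoped Matrix.Norms.Elementwise

namespace Vale.Agent.P011IA

open Vale.Agent.P092AL (Fl Pp Un Lv)
open Vale.Agent.P092CQ Vale.Agent.P092GP Vale.Agent.P092AG

theorem asm (one : P011IR.ONE) : P011IR.ASM := by
  intro n k K _ _ _ _ _ G 𝔤 H hE hY
  classical
  have hn := H.nice
  have hs := H.simp
  obtain ⟨R, N, om, hN, hR, sep, r1, r2, hw, -⟩ := P092RT.root hY (Rt_fin (𝔤 := 𝔤)) (fun c => c.1 rfl)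
    (fun _ => H.refl) (hs.irr hn)
  let y : Y G := ∑ j, om j
  have y1 : ∀ γ : Y G →+ ℤ, γ y = ∑ j, γ (om j) := fun γ => map_sum γ _ _
  have y2 : ∀ a ∈ Rt G 𝔤, (0 < a y ∧ ∀ j, 0 ≤ a (om j)) ∨ (a y < 0 ∧ ∀ j, a (om j) ≤ 0) := fun a ha => by
    obtain ⟨d, d1, m, -, d2⟩ := r1 a ha
    have d3 : ∀ j, a (om j) = (N * m : ℕ) * d j := fun j => (congrFun d2 j).trans (nsmul_eq_mul _ _)
    have d4 : ∃ j ∈ univ, a (om j) ≠ 0 := by_contra fun c => ha.1 (sep a fun j => by_contra fun e =>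
      c ⟨j, mem_univ j, e⟩)
    rw [y1]
    refine (hR.sign d d1).2.imp (fun c => ?_) fun c => ?_
    · have : ∀ j, 0 ≤ a (om j) := fun j => d3 j ▸ mul_nonneg (Int.natCast_nonneg _) (c j)
      exact ⟨sum_pos' (fun j _ => this j) (d4.imp fun j e => ⟨e.1, (this j).lt_of_ne' e.2⟩), this⟩
    · have : ∀ j, a (om j) ≤ 0 := fun j => d3 j ▸ mul_nonpos_of_nonneg_of_nonpos (Int.natCast_nonneg _) (c j)
      exact ⟨sum_neg' (fun j _ => this j) (d4.imp fun j e => ⟨e.1, (this j).lt_of_ne e.2⟩), this⟩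
  obtain ⟨π, θ, σ, E⟩ := hn.chart.ec
  obtain ⟨Ψ, p1, p2⟩ := E.poly y.2
  choose P hP using p1
  obtain ⟨m, γ, b, c, b1, b2, b3, b4⟩ := hn.chart.basis y
  have b5 : ∀ s : Fin m → k, ∑ j, s j • b j ∈ 𝔤 ⊓ FS k y.1 1 := fun s => sum_mem fun j _ =>
    Submodule.smul_mem _ _ ⟨(b1 j).2.2.1, FS_eq (R := k) y 1 ▸ WS_mono (fun _ e => e ▸ (b1 j).2.1) (b1 j).2.2.2⟩
  choose x x1 x2 using fun s => E.surj y.2 (b5 s).1 (b5 s).2
  let L : LD k G :=
    { R := R, n := n, N := N, m := m, ρ := (Units.coeHom _).comp G.subtype, wt := fun a j => (om j).1 a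
      τ := fun h t => ⟨tor (∑ j, h j • om j : Y G).1 t, (∑ j, h j • om j : Y G).2 t⟩
      dg := fun j l => γ j (om l)
      e := of fun p q => MvPolynomial.bind₁ (fun a => ∑ j, MvPolynomial.X j * MvPolynomial.C (b j a.1 a.2)) (P p q)
      x := fun s => ⟨x s, (x1 s).1⟩
      l := fun j => of fun p q => c j (π (msk G (· = γ j) (single p q 1))) }
  have e1 : ∀ s p q, MvPolynomial.eval s (L.e p q) = (x s : Mt n k) p q := fun s p q => by
    rw [← p2 _ (x1 s), x2]
    exact (ev_bind b s (P p q)).trans (hP p q _).symm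
  have z0 : ∀ g : G, g ∈ L.Z0 ↔ g.1 ∈ Zc G := fun g => by
    refine ⟨fun h => mem_Zc.2 ⟨g.2, fun z hz p q e => h p q fun d => e (sub_eq_zero.1 (DFunLike.congr_fun
      (sep (rt G p q) fun j => congrFun (AddSubmonoid.mem_bot.1 d) j) ⟨z, hz⟩))⟩, fun h p q e => ?_⟩
    exact by_contra fun d => e (AddSubmonoid.mem_bot.2 (funext fun j => sub_eq_zero.2
      (isL_lv.1 ((mem_Zc.1 h).2 _ (om j).2) p q d)))
  have u1 : ∀ g : G, g ∈ L.Up → g.1 ∈ Ugl y.1 := fun g h => isU_un.2 fun p q e => by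
    have d : 0 < L.wt p - L.wt q := by_contra fun d => e (h p q d)
    have := sum_pos' (fun j _ => d.le j) ((Pi.lt_def.1 d).2.imp fun j o => ⟨mem_univ j, o⟩)
    have f : y.1 p - y.1 q = ∑ j, (L.wt p - L.wt q) j := y1 (rt G p q)
    omega
  have u2 : ∀ (ε : ℤ) (g : G), ε * ε = 1 → g.1 ∈ Ugl (ε • y).1 → ∀ p q, ((g.1 : Mt n k) - 1) p q ≠ 0 →
      0 < ε • (L.wt p - L.wt q) := fun ε g hε h p q e => by
    have d := isU_un.1 h p q e
    have f : ∀ j, 0 ≤ (ε • (L.wt p - L.wt q)) j := fun j => by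
      have := (isP_pp.1 (hn.chart.U_le_P (z := ε • om j) (fun a ha o => by
        rw [map_zsmul, smul_eq_mul] at o ⊢
        rcases y2 a ha with v | v <;> nlinarith [v.1, v.2 j]) ⟨g.2, h⟩)).sub Pp.one p q e
      simpa [L, mul_sub] using this
    refine lt_of_le_of_ne f fun o => ?_
    have f : y.1 p - y.1 q = ∑ j, (L.wt p - L.wt q) j := y1 (rt G p q)
    have o' := congrArg (fun v => ∑ j, v j) o
    simp only [Pi.zero_apply, sum_const_zero, Pi.smul_apply, smul_eq_mul, ← mul_sum, ← f] at o'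
    simp only [AddSubgroup.coe_zsmul, Pi.smul_apply, smul_eq_mul] at d
    linarith
  have o1 : ∀ (j j' : Fin m) (a a' : ℕ), 0 < a → 0 < a' →
      (∀ l, (a' : ℤ) * γ j (om l) = a * γ j' (om l)) → j = j' := fun j j' a a' h h' e =>
    by_contra fun d => one n k K G 𝔤 H hE (γ j) (γ j') (b1 j).1.1 a a' h h'
      (sub_eq_zero.1 (sep _ fun l => by simpa [sub_eq_zero] using e l)) (b j) (b j') (b1 j).2.2
      (b1 j').2.2 (c j) (c j') (by rw [b2, if_pos rfl]) (by rw [b2, if_neg (Ne.symm d)])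
      (by rw [b2, if_neg d]) (by rw [b2, if_pos rfl])
  refine ⟨R, N, m, L.wt, L.τ, L.dg, L.e, L.x, L.l, show P011IR.Sp L from ⟨⟨hR, hN,
    Units.val_injective.comp Subtype.val_injective, fun g => hn.det1 _ g.2, fun h t => ?_,
    fun j => ?_, fun i => ?_, fun p q μ hμ => funext fun l => ?_, fun s => Matrix.ext fun p q => (e1 s p q).symm,
    Subtype.ext (E.inj y.2 (x1 0) (one_mem _) ((x2 0).trans (by simp))), fun g h => ?_, fun j p q e => ?_, fun s j => ?_,
    fun i g hg h1 => ?_, eq_top_iff.2 fun g _ => ?_⟩,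
    fun j j' e => o1 j j' 1 1 one_pos one_pos fun l => congrArg _ (congrFun e l), fun j => ?_⟩⟩
  · show diagonal _ = _
    simp [L, dotProduct, mul_comm]
  · obtain ⟨d, d1, l, d2, d3⟩ := r1 _ (b1 j).1
    refine ⟨d, d1, fun i => ?_, l, d2, d3⟩
    have := ((y2 _ (b1 j).1).resolve_right fun o => o.1.not_gt (b1 j).2.1).2 i
    rw [congrFun d3 i, Pi.smul_apply, nsmul_eq_mul] at this
    exact nonneg_of_mul_nonneg_right this (by positivity)
  · obtain ⟨a, a1, a2⟩ := r2 _ (hR.simple i)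
    obtain ⟨j, rfl⟩ := b4 a a1 (((y2 a a1).resolve_right fun o => by
      have := (congrFun a2 i).symm.trans_le (o.2 i)
      simp [P183CH.RS.α] at this
      omega).1)
    exact ⟨j, a2⟩
  · obtain ⟨t, ht⟩ := exists_small k
    rw [Finsupp.weight_apply, Finsupp.sum_fintype _ (fun i c => c • L.dg i) fun _ => zero_smul _ _,
      Finset.sum_apply]
    refine Eq.trans (sum_congr rfl fun j _ => nsmul_eq_mul _ _)
      (weight_eq (w := fun j => γ j (om l)) ht (fun s => ?_) hμ)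
    rw [e1, e1, E.inj y.2 (x1 _) (conj_U (om l).2 (x1 s) t), Units.val_mul, Units.val_mul, tor_conj]
    · rfl
    rw [← Ad_coe, E.pi_Ad (om l).2, x2, x2, map_sum]
    refine sum_congr rfl fun j _ => Matrix.ext fun p q => ?_
    rw [map_smul, Ad_tor, Matrix.smul_apply, Matrix.smul_apply, sch_apply]
    by_cases o : b j p q = 0
    · simp [o]
    · rw [show rt G p q = γ j from (b1 j).2.2.2 p q o, smul_eq_mul, smul_eq_mul]; ring
  · obtain ⟨s, e⟩ := b3 _ (E.mem (((g.1 : GL (Fin n) k) : Mt n k) - 1)) (E.fl y.2 (isU_un.1 (u1 g h)))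
    exact ⟨s, Subtype.ext (E.inj y.2 ⟨g.2, u1 g h⟩ (x1 s) (e.symm.trans (x2 s).symm))⟩
  · show c j (π _) = 0
    rw [show msk G (· = γ j) (single p q (1 : k)) = 0 from Matrix.ext fun a a' => by
      rw [msk_apply]
      split_ifs with o
      · refine single_apply_of_ne _ _ _ _ _ fun v => e (funext fun l => ?_)
        rw [v.1, v.2]
        exact DFunLike.congr_fun o _
      · rfl, map_zero, map_zero]
  · have k1 : ∀ M : Mt n k, L.co j M = c j (π (msk G (· = γ j) M)) := fun M => by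
      conv_rhs => rw [matrix_eq_sum_single M]
      simp only [map_sum]
      refine sum_congr rfl fun p _ => sum_congr rfl fun q _ => ?_
      rw [show single p q (M p q) = M p q • single p q 1 by simp, map_smul, map_smul, map_smul, smul_eq_mul,
        mul_comm]
      rfl
    have k2 : msk G (· = γ j) (x s : Mt n k) = msk G (· = γ j) ((x s : Mt n k) - 1) := by
      rw [map_sub, msk, sch_one, if_neg (b1 j).1.1.symm, zero_smul, sub_zero]
    refine (k1 _).trans ((congrArg (fun M => c j (π M)) k2).trans ?_)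
    rw [msk, E.gr, x2, ← msk, map_sum, map_sum, sum_eq_single j (fun l _ o => ?_) (by simp), map_smul, map_smul,
      msk_self (b1 j).2.2.2, b2, if_pos rfl, smul_eq_mul, mul_one]
    by_cases v : γ l = γ j
    · rw [map_smul, map_smul, msk_self (v ▸ (b1 l).2.2.2), b2, if_neg o, smul_zero]
    · rw [map_smul, show msk G (· = γ j) (b l) = 0 from Matrix.ext fun a a' => by
        rw [msk_apply]
        split_ifs with o
        · exact by_contra fun d => v (((b1 l).2.2.2 a a' d).symm.trans o)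
        · rfl, smul_zero, map_zero]
  · obtain ⟨α, a1, a2⟩ := r2 _ (hR.simple i)
    have a3 : ∀ j, α (om j) = if j = i then (N : ℤ) else 0 := fun j => by
      rw [congrFun a2 j]; simp [P183CH.RS.α, Pi.single_apply]
    obtain ⟨s, hs⟩ := exists_Gen α
    obtain ⟨z, z1, z2⟩ : ∃ z : Y G, Reg G z ∧ 0 < α z := by
      obtain ⟨z, hz⟩ := exists_reg G
      rcases (Rt_reg a1 ⟨z, hz.1⟩ hz).lt_or_gt with c | c
      · exact ⟨-⟨z, hz.1⟩, hz.neg, by rwa [map_neg, neg_pos]⟩
      · exact ⟨_, hz, c⟩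
    have a4 : ∀ p q, ((g.1 : Mt n k) - 1) p q ≠ 0 → ∃ l : ℕ, 0 < l ∧ ∀ w, N * rt G p q w = l * α w :=
      fun p q e => by
      obtain ⟨l, l1, l2⟩ : L.wt p - L.wt q ∈ dRay (R.α i) := by_contra fun d => e (hg p q d)
      refine ⟨l, l1, fun w => sub_eq_zero.1 ?_⟩
      simpa using DFunLike.congr_fun (sep (N • rt G p q - l • α) fun j => by
        have : rt G p q (om j) = _ := congrFun l2 j
        simp [this, a3, P183CH.RS.α, Pi.single_apply, mul_comm]) w
    obtain ⟨v, v1, v', v2, σ, v3, -⟩ := H.rgd' hs z1 (Rt_reg a1) (u := g.1) ⟨⟨g.2, isL_lv.2 (by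
      have : Lv s.1 ((g.1 : Mt n k) - 1) := fun p q e => by
        obtain ⟨l, -, d⟩ := a4 p q e
        have := d s
        rw [hs.1, mul_zero, mul_eq_zero, rt_apply] at this
        omega
      simpa using mem_LS.1 (add_mem (mem_LS.2 this) (mem_LS.2 Lv.one)))⟩, isU_un.2 fun p q e => by
        obtain ⟨l, d1, d⟩ := a4 p q e
        have := d z
        rw [rt_apply] at this
        have : 0 < (N : ℤ) * (z.1 p - z.1 q) := by rw [this]; positivity
        have := pos_of_mul_pos_left this.gt |> fun f => (mul_pos_iff_of_pos_left (by exact_mod_cast hN)).1 this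
        omega⟩ fun d => h1 (Subtype.ext d)
    have a5 : ∀ v (h : v ∈ G ⊓ Lgl s.1 ⊓ Ugl (-z.1)), (⟨v, h.1.1⟩ : G) ∈ L.X (-R.α i) := fun v h p q e =>
      by_contra fun d => e (by
        have d1 := isU_un.1 h.2 p q d
        simp only [Pi.neg_apply] at d1
        have d2 := mem_LS.1 (sub_mem (mem_LS.2 (isL_lv.1 h.1.2)) (mem_LS.2 Lv.one)) p q d
        have d3 := (hs.sg z2 (z := om i) (by rw [a3, if_pos rfl]; exact_mod_cast hN) p q d2).1 (by omega)
        refine ⟨((om i).1 q - (om i).1 p).toNat, by omega, funext fun j => ?_⟩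
        show (om j).1 p - (om j).1 q = _
        by_cases o : j = i
        · subst o
          simp [P183CH.RS.α]
          omega
        · simp [P183CH.RS.α, o, hs.2 p q d2 (om j) (by rw [a3, if_neg o])])
    refine ⟨_, a5 v v1, _, a5 v' v2, fun p q e => by_contra fun d => e ?_⟩
    refine Eq.trans (funext fun j => (tw_perm v3.nm v3.ne (om j).2).2.wt d) (hw i σ
      (fun w h => (tw_perm v3.nm v3.ne h).1) (fun w h => v3.fix w (h α a1 a2)) (fun a _ h => ?_) q)
    rw [show a = α from sub_eq_zero.1 (sep _ fun j => sub_eq_zero.2 (congrFun (h.trans a2.symm) j))]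
    exact v3.neg
  · obtain ⟨g', h, e⟩ := hn.le_of_cell y.2 (D := (L.Z0 ⊔ L.Gp).map G.subtype)
      (fun v hv => ⟨⟨v, hv.1⟩, (le_sup_right.trans le_sup_right : L.Um ≤ L.Z0 ⊔ L.Gp) fun p q e =>
        by_contra fun d => e (sub_neg.2 (by simpa using u2 (-1) ⟨v, hv.1⟩ rfl (by simpa using hv.2) p q d)), rfl⟩)
      (fun v hv => ⟨⟨v, hv.1⟩, (le_sup_left : L.Z0 ≤ _) ((z0 _).2 (hn.levi_le (fun a ha =>
        (y2 a ha).elim (·.1.ne') (·.1.ne)) hv)), rfl⟩)
      (fun v hv => ⟨⟨v, hv.1⟩, (le_sup_left.trans le_sup_right : L.Up ≤ L.Z0 ⊔ L.Gp) fun p q e =>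
        by_contra fun d => e (sub_pos.2 (by simpa using u2 1 ⟨v, hv.1⟩ rfl (by simpa using hv.2) p q d)), rfl⟩) g.2
    exact (Subtype.ext e : g' = g) ▸ h
  · obtain ⟨d, d1, l, d2, d3⟩ := r1 _ (b1 j).1
    obtain ⟨a, a1, a2⟩ := r2 d d1
    have a3 : ∀ i, γ j (om i) = l * a (om i) := fun i => by
      rw [congrFun d3 i, congrFun a2 i]
      simp only [Pi.smul_apply, nsmul_eq_mul]
      push_cast
      ring
    obtain ⟨j', rfl⟩ := b4 a a1 (by
      have := (b1 j).2.1
      rw [y1, sum_congr rfl fun i _ => a3 i, ← mul_sum, ← y1] at this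
      exact (mul_pos_iff_of_pos_left (by exact_mod_cast d2)).1 this)
    obtain rfl := o1 j j' l 1 d2 one_pos fun i => by simpa using a3 i
    exact ⟨d, d1, a2⟩

end Vale.Agent.P011IA
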